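import Vale.Agent.P130.H454.Spec
import Vale.Agent.P130.H980.Final
import Vale.Agent.Results.P130.RankOne

/-!
# The rank one transformation with simple Lebesgue spectrum, its towers, and the general space
-/

open MeasureTheory Set Filter Topology ProbabilityTheory
open scoped ENNReal

namespace Vale.Agent.P130.H454

open Vale.Agent.P130R in
theorem towers_of {D : Cuts} {X : Type} [MeasurableSpace X] {μ : Measure X} {T : X ≃ᵐ X}
    {B : ℕ → Set X} (hB : IsRankOne D μ T B) : HasTowers μ T := by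
  obtain ⟨h1, h2, h3, h4, h5, h6⟩ := hB
  intro ε hε H
  obtain ⟨N, F, hF, hμ⟩ := h6 Set.univ MeasurableSet.univ ε hε
  set U : ℕ → Set X := fun n => ⋃ i ∈ Finset.range (D.h n), T.symm^[i] ⁻¹' B n with hU
  have hstep : ∀ n, U n ⊆ U (n + 1) := by
    intro n x hx
    simp only [hU, Set.mem_iUnion, Finset.mem_range, Set.mem_preimage] at hx ⊢
    obtain ⟨i, hi, hx⟩ := hx
    rw [h5 n] at hx
    simp only [Set.mem_iUnion, Finset.mem_range] at hx
    obtain ⟨k, hk, hx⟩ := hx
    refine ⟨D.a n k + i, ?_, ?_⟩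
    · have := Vale.Agent.Results.P130.RankOne.last_lt D n i k hi hk
      omega
    · rw [Function.iterate_add_apply]
      exact hx
  have hmono : ∀ n, N ≤ n → U N ⊆ U n := by
    intro n hn
    induction n, hn using Nat.le_induction with
    | base => exact subset_rfl
    | succ n _ ih => exact ih.trans (hstep n)
  refine ⟨D.h (max N H), B (max N H), ?_, h2 _, ?_, ?_⟩
  · have hb := D.h_big (max N H)
    have h7 : max N H < 2 ^ (max N H) := Nat.lt_two_pow_self
    have h8 : 2 ^ (max N H) ≤ 2 ^ (max N H + 1) * (D.K (max N H) + 2) := by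
      rw [pow_succ]
      nlinarith [Nat.zero_le (2 ^ (max N H)), Nat.zero_le (D.K (max N H))]
    have := le_max_right N H
    omega
  · intro i hi j hj hij
    exact h4 _ i hi j hj hij
  · refine le_trans (measure_mono ?_) hμ
    intro x hx
    rw [Set.mem_symmDiff]
    left
    refine ⟨Set.mem_univ x, fun hx2 => hx ?_⟩
    refine hmono _ (le_max_left N H) ?_
    simp only [Set.mem_iUnion] at hx2
    obtain ⟨i, hi, hx2⟩ := hx2
    simp only [hU, Set.mem_iUnion, Finset.mem_range]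
    exact ⟨i, hF i hi, hx2⟩

theorem iter_apply' {X : Type} [MeasurableSpace X] (T : X ≃ᵐ X) (n : ℕ) :
    (H980.iter T n : X → X) = T^[n] := by
  induction n with
  | zero => rfl
  | succ n ih =>
    funext x
    rw [Function.iterate_succ_apply']
    show T (H980.iter T n x) = _
    rw [ih]

/-- the basic example -/
theorem base : ∃ (X : Type) (_ : MeasurableSpace X) (_ : StandardBorelSpace X) (μ : Measure X)
    (_ : IsProbabilityMeasure μ) (T : X ≃ᵐ X), (∀ x, μ {x} = 0) ∧ MeasurePreserving T μ μ ∧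
    FL μ T ∧ HasTowers μ T ∧ Mix μ T := by
  obtain ⟨D, C, U, hD⟩ := Vale.Agent.P130R.cutsExist
  obtain ⟨X, i1, i2, μ, i3, T, B, h4, hB⟩ :=
    Vale.Agent.P130R.sys Vale.Agent.P130R.odo Vale.Agent.P130R.susp D
  have hs : Vale.Agent.Results.P130.RankOne.SimpleLebesgueSpectrum μ T :=
    Vale.Agent.Results.P130.RankOne.of_simpleLebesgue hB.1
      (Vale.Agent.P130R.koop Vale.Agent.P130R.abs D C U hD X i1 μ i3 T B hB)
  have hs' : H980.SimpleLebesgueSpectrum μ T := hs
  obtain ⟨f, hf⟩ := H980.orbit_of_simple hs'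
  refine ⟨X, i1, i2, μ, i3, T, h4, hB.1, hs, towers_of hB, ?_⟩
  intro A A' hA hA'
  have h5 := H980.mix_of hB.1 hf A A' hA hA'
  simpa only [iter_apply'] using h5

/-- **Every standard nonatomic probability space** carries a transformation with simple Lebesgue
spectrum, and its conjugates are dense. -/
theorem every {X : Type*} [MeasurableSpace X] [StandardBorelSpace X] (μ : Measure X)
    [IsProbabilityMeasure μ] (hμ : ∀ x, μ {x} = 0) :
    ∃ T : X ≃ᵐ X, MeasurePreserving T μ μ ∧ SimpleLebesgueSpectrum μ T ∧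
      (∃ f, IsOrbitBasis μ T f) ∧ StronglyMixing μ T ∧ ConjugatesDense μ T ∧
      ∀ φ : X ≃ᵐ X, MeasurePreserving φ μ μ → ∀ R : X ≃ᵐ X, R = φ.symm.trans (T.trans φ) →
        MeasurePreserving R μ μ ∧ SimpleLebesgueSpectrum μ R ∧ StronglyMixing μ R := by
  obtain ⟨X0, i1, i2, μ0, i3, T0, h0, h1, h2, h3, h4⟩ := base
  obtain ⟨θ, hθ⟩ := exists_equiv μ0 μ h0 hμ
  have hT : MeasurePreserving (cj θ T0) μ μ := cj_mp hθ h1
  have hF : FL μ (cj θ T0) := cj_FL hθ h2
  refine ⟨cj θ T0, hT, spectrum_of_basis hT (simple_of_FL hT hF), hF, cj_mix hθ h4, ?_, ?_⟩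
  · intro S hS m A hA ε hε
    obtain ⟨φ, hφ, hA'⟩ := dense μ hμ hT (cj_towers hθ h3) hS A hA hε
    exact ⟨φ, hφ, hA'⟩
  · rintro φ hφ R rfl
    exact ⟨cj_mp hφ hT, spectrum_of_basis (cj_mp hφ hT)
      (simple_of_FL (cj_mp hφ hT) (cj_FL hφ hF)), cj_mix hφ (cj_mix hθ h4)⟩

end Vale.Agent.P130.H454
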