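import Mathlib.Analysis.Fourier.AddCircle

/-!
# Simple Lebesgue spectrum, strong mixing, and density in the automorphism group
-/

open MeasureTheory Filter Topology

namespace Vale.Agent.P130.H454

/-- `T` has **simple Lebesgue spectrum**: the operator `U_T g = g ∘ T` on the mean zero subspace of
complex `L²(μ)` is unitarily equivalent, by `W`, to the multiplication by the coordinate `w` on
complex `L²(S¹, m)`. Here `S¹` is the circle `ℝ/ℤ`, `w = fourier 1 t = exp (2 π i t)`, `m` is the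
normalised Haar measure, and `W` is written as a map of functions which is linear almost everywhere,
preserves the `L²` norm, maps `L²(S¹, m)` onto the mean zero subspace of `L²(μ)`, and satisfies
`W (w φ) = (W φ) ∘ T` almost everywhere. -/
def SimpleLebesgueSpectrum {X : Type*} [MeasurableSpace X] (μ : Measure X) (T : X ≃ᵐ X) : Prop :=
  ∃ (m : Measure UnitAddCircle) (W : (UnitAddCircle → ℂ) → X → ℂ),
    m = AddCircle.haarAddCircle ∧
    (∀ φ ψ, MemLp φ 2 m → MemLp ψ 2 m → ∀ a b : ℂ,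
      W (fun t => a * φ t + b * ψ t) =ᵐ[μ] fun x => a * W φ x + b * W ψ x) ∧
    (∀ φ, MemLp φ 2 m → MemLp (W φ) 2 μ ∧ ∫ x, W φ x ∂μ = 0 ∧
      eLpNorm (W φ) 2 μ = eLpNorm φ 2 m) ∧
    (∀ g, MemLp g 2 μ → ∫ x, g x ∂μ = 0 → ∃ φ, MemLp φ 2 m ∧ W φ =ᵐ[μ] g) ∧
    ∀ φ, MemLp φ 2 m → W (fun t => fourier 1 t * φ t) =ᵐ[μ] fun x => W φ (T x)

/-- The equivalent form: for the function `f` the functions `f ∘ T ^ n`, `n ∈ ℤ`, form an
orthonormal basis of the mean zero subspace of complex `L²(μ)`. -/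
def IsOrbitBasis {X : Type*} [MeasurableSpace X] (μ : Measure X) (T : X ≃ᵐ X) (f : X → ℂ) :
    Prop :=
  MemLp f 2 μ ∧ ∫ x, f x ∂μ = 0 ∧
    (∀ m n : ℤ, ∫ x, f (((T.toEquiv : Equiv.Perm X) ^ m) x) *
      starRingEnd ℂ (f (((T.toEquiv : Equiv.Perm X) ^ n) x)) ∂μ = if m = n then 1 else 0) ∧
    ∀ g : X → ℂ, MemLp g 2 μ → ∫ x, g x ∂μ = 0 →
      (∀ n : ℤ, ∫ x, g x * starRingEnd ℂ (f (((T.toEquiv : Equiv.Perm X) ^ n) x)) ∂μ = 0) →
      g =ᵐ[μ] 0

/-- `T` is **strongly mixing**: `μ (A ∩ T⁻ⁿ B) → μ A * μ B` for all measurable sets `A`, `B`. -/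
def StronglyMixing {X : Type*} [MeasurableSpace X] (μ : Measure X) (T : X ≃ᵐ X) : Prop :=
  ∀ A B : Set X, MeasurableSet A → MeasurableSet B →
    Tendsto (fun n : ℕ => μ (A ∩ T^[n] ⁻¹' B)) atTop (𝓝 (μ A * μ B))

/-- The conjugates `φ T φ⁻¹` of `T`, `φ` in the group `Aut (X, μ)` of all invertible
`μ`-preserving transformations, are **dense in `Aut (X, μ)`** for the weak topology: for every `S`
in `Aut (X, μ)`, finitely many measurable sets `A i` and `ε > 0` some conjugate `R = φ T φ⁻¹` has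
`μ (R (A i) ∆ S (A i)) ≤ ε` for all `i`. -/
def ConjugatesDense {X : Type*} [MeasurableSpace X] (μ : Measure X) (T : X ≃ᵐ X) : Prop :=
  ∀ S : X ≃ᵐ X, MeasurePreserving S μ μ → ∀ (m : ℕ) (A : Fin m → Set X),
    (∀ i, MeasurableSet (A i)) → ∀ ε : ENNReal, 0 < ε →
      ∃ φ : X ≃ᵐ X, MeasurePreserving φ μ μ ∧
        ∀ i, μ (symmDiff (φ.symm.trans (T.trans φ) '' A i) (S '' A i)) ≤ ε

end Vale.Agent.P130.H454
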