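import Vale.Agent.P130.H454.Label

/-!
# Halmos' conjugacy lemma for transformations with Rokhlin towers
-/

open MeasureTheory Set Filter Topology ProbabilityTheory
open scoped ENNReal

namespace Vale.Agent.P130.H454

/-- `T` has Rokhlin towers -/
def HasTowers {X : Type*} [MeasurableSpace X] (μ : Measure X) (T : X ≃ᵐ X) : Prop :=
  ∀ ε : ℝ≥0∞, 0 < ε → ∀ H : ℕ, ∃ (h : ℕ) (B : Set X), H ≤ h ∧ MeasurableSet B ∧
    (∀ i < h, ∀ j < h, i ≠ j → Disjoint (T.symm^[i] ⁻¹' B) (T.symm^[j] ⁻¹' B)) ∧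
    μ (⋃ i ∈ Finset.range h, T.symm^[i] ⁻¹' B)ᶜ ≤ ε

theorem halmos {X L : Type*} [MeasurableSpace X] [StandardBorelSpace X] [Fintype L]
    [MeasurableSpace L] [MeasurableSingletonClass L] (μ : Measure X) [IsProbabilityMeasure μ]
    (hμ : ∀ x, μ {x} = 0) {T S : X ≃ᵐ X} (hT : MeasurePreserving T μ μ) (hTow : HasTowers μ T)
    (hS : MeasurePreserving S μ μ) {q : X → L} (hq : Measurable q) {ε : ℝ≥0∞} (hε : 0 < ε) :
    ∃ φ : X ≃ᵐ X, MeasurePreserving φ μ μ ∧ μ {x | q (S.symm (φ x)) ≠ q (φ (T.symm x))} ≤ ε := by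
  classical
  set ε1 : ℝ≥0∞ := min ε 1 / 4 with hε1
  have hε10 : 0 < ε1 := by
    rw [hε1]
    exact ENNReal.div_pos (lt_min hε one_pos).ne' (by norm_num)
  have hε1lt : ε1 < 1 := by
    rw [hε1]
    refine lt_of_le_of_lt (ENNReal.div_le_div_right (min_le_right _ _) _) ?_
    rw [ENNReal.div_lt_iff (Or.inl (by norm_num)) (Or.inl (by norm_num))]
    norm_num
  have h4 : ε1 + ε1 + (ε1 + ε1) ≤ ε := by
    have : ε1 + ε1 + (ε1 + ε1) = 4 * ε1 := by ring
    rw [this, hε1, ENNReal.mul_div_cancel (by norm_num) (by norm_num)]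
    exact min_le_left _ _
  obtain ⟨H, hH⟩ := ENNReal.exists_inv_nat_lt hε10.ne'
  obtain ⟨h, B, hHh, hB, hdis, htow⟩ := hTow ε1 hε10 (max H 2)
  have hh2 : 2 ≤ h := (le_max_right _ _).trans hHh
  have hTs : MeasurePreserving T.symm μ μ := hT.symm T
  have hTi : ∀ i, MeasurePreserving T.symm^[i] μ μ := fun i => hTs.iterate i
  have hSi : ∀ i, MeasurePreserving S^[i] μ μ := fun i => hS.iterate i
  have hlev : ∀ i, MeasurableSet (T.symm^[i] ⁻¹' B) := fun i => (hTi i).measurable hB
  have huniq : ∀ (x : X) (i j : ℕ), i < h → j < h → T.symm^[i] x ∈ B → T.symm^[j] x ∈ B →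
      i = j := by
    intro x i j hi hj h1 h2
    by_contra hij
    exact Set.disjoint_left.1 (hdis i hi j hj hij) h1 h2
  have hsumB : (h : ℝ≥0∞) * μ B ≤ 1 := by
    have h1 : μ (⋃ i ∈ Finset.range h, T.symm^[i] ⁻¹' B) = ∑ i ∈ Finset.range h, μ B := by
      rw [measure_biUnion_finset]
      · refine Finset.sum_congr rfl fun i _ => (hTi i).measure_preimage hB.nullMeasurableSet
      · intro i hi j hj hij
        exact hdis i (Finset.mem_range.1 hi) j (Finset.mem_range.1 hj) hij
      · exact fun i _ => hlev i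
    rw [Finset.sum_const, Finset.card_range, nsmul_eq_mul] at h1
    rw [← h1]
    exact prob_le_one
  have hμB : μ B ≤ ε1 := by
    have h1 : μ B ≤ (h : ℝ≥0∞)⁻¹ := by
      rw [ENNReal.le_inv_iff_mul_le, mul_comm]
      exact hsumB
    refine h1.trans (le_trans ?_ hH.le)
    rw [ENNReal.inv_le_inv]
    exact_mod_cast (le_max_left _ _).trans hHh
  have hB0 : μ B ≠ 0 := by
    intro h0
    have h1 : μ (⋃ i ∈ Finset.range h, T.symm^[i] ⁻¹' B) = 0 := by
      refine le_antisymm ((measure_biUnion_finset_le _ _).trans ?_) bot_le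
      refine (Finset.sum_eq_zero fun i _ => ?_).le
      rw [(hTi i).measure_preimage hB.nullMeasurableSet, h0]
    have h2 : μ (⋃ i ∈ Finset.range h, T.symm^[i] ⁻¹' B)ᶜ = 1 := by
      rw [prob_compl_eq_one_iff (Finset.measurableSet_biUnion _ fun i _ => hlev i)]
      exact h1
    rw [h2] at htow
    exact absurd htow (not_le.2 hε1lt)
  have hBp : IsProbabilityMeasure (μ[|B]) := cond_isProbabilityMeasure hB0
  obtain ⟨ψ, hψ⟩ := exists_equiv (μ[|B]) μ (cond_na hμ B) hμ
  have hψB : ∀ Z : Set X, MeasurableSet Z → μ (B ∩ ψ ⁻¹' Z) = μ Z * μ B := by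
    intro Z hZ
    rw [← cond_mul_eq_inter (μ := μ) hB, hψ.measure_preimage hZ.nullMeasurableSet]
  -- labels of the tower
  let lab : ℕ → X → L × L := fun i x =>
    (q (S^[i] (ψ (T.symm^[i + 1] x))), q (S^[i + 1] (ψ (T.symm^[i + 1] x))))
  let ps : X → Option (L × L) := fun x =>
    if hx : ∃ i, i + 1 < h ∧ T.symm^[i + 1] x ∈ B then some (lab hx.choose x) else none
  have hps : ∀ (x : X) (i : ℕ), i + 1 < h → T.symm^[i + 1] x ∈ B → ps x = some (lab i x) := by
    intro x i hi hx
    have hex : ∃ i, i + 1 < h ∧ T.symm^[i + 1] x ∈ B := ⟨i, hi, hx⟩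
    have h1 : hex.choose = i := by
      have h2 := huniq x _ _ hex.choose_spec.1 hi hex.choose_spec.2 hx
      omega
    simp only [ps, hex, dif_pos, h1]
  have hps' : ∀ x, ps x ≠ none → ∃ i, i + 1 < h ∧ T.symm^[i + 1] x ∈ B := by
    intro x hx
    by_contra hcon
    apply hx
    simp only [ps, hcon, dif_neg, not_false_iff]
  let r : X → L × L := fun z => (q (S.symm z), q z)
  have hr : Measurable r := (hq.comp S.symm.measurable).prodMk hq
  have hpre : ∀ k : L × L, ps ⁻¹' {some k} = ⋃ i ∈ Finset.range (h - 1),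
      T.symm^[i + 1] ⁻¹' (B ∩ ψ ⁻¹' (S^[i + 1] ⁻¹' (r ⁻¹' {k}))) := by
    intro k
    ext x
    simp only [Set.mem_preimage, Set.mem_singleton_iff, Set.mem_iUnion, Set.mem_inter_iff,
      Finset.mem_range]
    have hlr : ∀ i, lab i x = r (S^[i + 1] (ψ (T.symm^[i + 1] x))) := by
      intro i
      simp only [lab, r]
      rw [Function.iterate_succ_apply' S i, S.symm_apply_apply]
    constructor
    · intro hx
      obtain ⟨i, hi, hxB⟩ := hps' x (by rw [hx]; exact Option.some_ne_none _)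
      refine ⟨i, by omega, hxB, ?_⟩
      rw [hps x i hi hxB] at hx
      rw [← hlr]
      exact Option.some.inj hx
    · rintro ⟨i, hi, hxB, hxk⟩
      rw [hps x i (by omega) hxB, hlr, hxk]
  have hrm : ∀ k : L × L, MeasurableSet (r ⁻¹' {k}) := fun k => hr (measurableSet_singleton k)
  have hpm : ∀ (k : L × L) (i : ℕ), MeasurableSet (B ∩ ψ ⁻¹' (S^[i + 1] ⁻¹' (r ⁻¹' {k}))) :=
    fun k i => hB.inter (ψ.measurable ((hSi (i + 1)).measurable (hrm k)))
  have hpmeas : ∀ k : L × L, MeasurableSet (ps ⁻¹' {some k}) := by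
    intro k
    rw [hpre k]
    exact Finset.measurableSet_biUnion _ fun i _ => (hTi (i + 1)).measurable (hpm k i)
  set c : ℝ≥0∞ := ((h - 1 : ℕ) : ℝ≥0∞) * μ B with hc
  have hc1 : c ≤ 1 := by
    refine le_trans ?_ hsumB
    rw [hc]
    gcongr
    exact Nat.sub_le h 1
  have hpsμ : ∀ k : L × L, μ (ps ⁻¹' {some k}) = c * μ (r ⁻¹' {k}) := by
    intro k
    rw [hpre k, measure_biUnion_finset]
    · have h1 : ∀ i ∈ Finset.range (h - 1),
          μ (T.symm^[i + 1] ⁻¹' (B ∩ ψ ⁻¹' (S^[i + 1] ⁻¹' (r ⁻¹' {k})))) =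
          μ (r ⁻¹' {k}) * μ B := by
        intro i _
        rw [(hTi (i + 1)).measure_preimage (hpm k i).nullMeasurableSet,
          hψB _ ((hSi (i + 1)).measurable (hrm k)),
          (hSi (i + 1)).measure_preimage (hrm k).nullMeasurableSet]
      rw [Finset.sum_congr rfl h1, Finset.sum_const, Finset.card_range, nsmul_eq_mul, hc]
      ring
    · intro i hi j hj hij
      have hi' := Finset.mem_range.1 (Finset.mem_coe.1 hi)
      have hj' := Finset.mem_range.1 (Finset.mem_coe.1 hj)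
      refine (hdis (i + 1) (by omega) (j + 1) (by omega) (by omega)).mono ?_ ?_
      · exact Set.preimage_mono Set.inter_subset_left
      · exact Set.preimage_mono Set.inter_subset_left
    · exact fun i _ => (hTi (i + 1)).measurable (hpm k i)
  obtain ⟨E, hE, hEc⟩ := exists_prop μ hμ hr hc1
  let p : X → Option (L × L) := fun z => if z ∈ E then some (r z) else none
  have hpp : ∀ k : L × L, p ⁻¹' {some k} = r ⁻¹' {k} ∩ E := by
    intro k
    ext z
    simp only [p, Set.mem_preimage, Set.mem_singleton_iff, Set.mem_inter_iff]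
    by_cases hz : z ∈ E
    · simp [hz]
    · simp [hz]
  let _ : MeasurableSpace (Option (L × L)) := ⊤
  have hms : MeasurableSingletonClass (Option (L × L)) := ⟨fun _ => trivial⟩
  have hnone : ∀ f : X → Option (L × L), f ⁻¹' {none} = (⋃ k : L × L, f ⁻¹' {some k})ᶜ := by
    intro f
    ext x
    simp only [Set.mem_preimage, Set.mem_singleton_iff, Set.mem_compl_iff, Set.mem_iUnion,
      not_exists]
    constructor
    · intro hx k hk
      rw [hx] at hk
      exact (Option.some_ne_none k) hk.symm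
    · intro hx
      rcases hfx : f x with _ | k
      · rfl
      · exact absurd hfx (hx k)
  have hmeas : ∀ f : X → Option (L × L), (∀ k, MeasurableSet (f ⁻¹' {some k})) → Measurable f := by
    intro f hf
    refine measurable_to_countable' fun o => ?_
    rcases o with _ | k
    · rw [hnone f]
      exact (MeasurableSet.iUnion hf).compl
    · exact hf k
  have hpsM : Measurable ps := hmeas ps hpmeas
  have hpM : Measurable p := hmeas p fun k => by
    rw [hpp k]
    exact (hrm k).inter hE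
  have hsome : ∀ k, μ (ps ⁻¹' {some k}) = μ (p ⁻¹' {some k}) := fun k => by
    rw [hpsμ k, hpp k, hEc k]
  have hall : ∀ o, μ (ps ⁻¹' {o}) = μ (p ⁻¹' {o}) := by
    intro o
    rcases o with _ | k
    · have h1 := sum_label μ hpsM Set.univ
      have h2 := sum_label μ hpM Set.univ
      simp only [Set.inter_univ] at h1 h2
      rw [Fintype.sum_option, measure_univ] at h1 h2
      have h3 : ∑ k, μ (ps ⁻¹' {some k}) = ∑ k, μ (p ⁻¹' {some k}) :=
        Finset.sum_congr rfl fun k _ => hsome k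
      rw [h3] at h1
      have h5 : ∑ k, μ (p ⁻¹' {some k}) ≠ ∞ := by
        refine ne_top_of_le_ne_top ENNReal.one_ne_top ?_
        rw [← h2]
        exact le_add_self
      exact (ENNReal.add_left_inj h5).1 (h1.trans h2.symm)
    · exact hsome k
  obtain ⟨φ, hφ, hφp⟩ := exists_label_equiv μ μ hμ hμ hpsM hpM hall
  refine ⟨φ, hφ, ?_⟩
  have hφp2 : ∀ᵐ x ∂μ, p (φ (T.symm x)) = ps (T.symm x) :=
    hTs.quasiMeasurePreserving.ae hφp
  have hbad : ∀ᵐ x ∂μ, x ∈ {x | q (S.symm (φ x)) ≠ q (φ (T.symm x))} →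
      x ∈ ps ⁻¹' {none} ∪ T.symm ⁻¹' (ps ⁻¹' {none}) := by
    filter_upwards [hφp, hφp2] with x hx1 hx2 hx3
    by_contra hcon
    simp only [Set.mem_union, Set.mem_preimage, Set.mem_singleton_iff, not_or] at hcon
    apply hx3
    obtain ⟨i, hi, hxB⟩ := hps' x hcon.1
    obtain ⟨j, hj, hyB⟩ := hps' (T.symm x) hcon.2
    have hij : i = j + 1 := by
      refine huniq (T.symm x) i (j + 1) (by omega) hj ?_ hyB
      rw [← Function.iterate_succ_apply]
      exact hxB
    have hsm : ∀ z o, p z = some o → r z = o := by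
      intro z o hz
      simp only [p] at hz
      split_ifs at hz with hzE
      exact Option.some.inj hz
    have g1 := hsm _ _ (hx1.trans (hps x i hi hxB))
    have g2 := hsm _ _ (hx2.trans (hps (T.symm x) j hj hyB))
    have g3 : q (S.symm (φ x)) = q (S^[i] (ψ (T.symm^[i + 1] x))) := (Prod.mk.inj g1).1
    have g4 : q (φ (T.symm x)) = q (S^[j + 1] (ψ (T.symm^[j + 1] (T.symm x)))) :=
      (Prod.mk.inj g2).2
    rw [g3, g4, ← Function.iterate_succ_apply, ← hij]
  have hnn : μ (ps ⁻¹' {none}) ≤ ε1 + ε1 := by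
    have h1 : ps ⁻¹' {none} ⊆ (⋃ i ∈ Finset.range h, T.symm^[i] ⁻¹' B)ᶜ ∪ B := by
      intro x hx
      by_cases hxt : x ∈ ⋃ i ∈ Finset.range h, T.symm^[i] ⁻¹' B
      · right
        simp only [Set.mem_iUnion, Finset.mem_range, Set.mem_preimage] at hxt
        obtain ⟨i, hi, hxB⟩ := hxt
        rcases i with _ | i
        · exact hxB
        · exfalso
          have h2 := hps x i hi hxB
          have h3 : ps x = none := hx
          rw [h3] at h2
          exact (Option.some_ne_none _) h2.symm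
      · left; exact hxt
    exact (measure_mono h1).trans ((measure_union_le _ _).trans (add_le_add htow hμB))
  have hnm : MeasurableSet (ps ⁻¹' {none}) := hpsM (measurableSet_singleton _)
  calc μ {x | q (S.symm (φ x)) ≠ q (φ (T.symm x))}
      ≤ μ (ps ⁻¹' {none} ∪ T.symm ⁻¹' (ps ⁻¹' {none})) := measure_mono_ae hbad
    _ ≤ μ (ps ⁻¹' {none}) + μ (T.symm ⁻¹' (ps ⁻¹' {none})) := measure_union_le _ _
    _ = μ (ps ⁻¹' {none}) + μ (ps ⁻¹' {none}) := by
        rw [hTs.measure_preimage hnm.nullMeasurableSet]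
    _ ≤ ε1 + ε1 + (ε1 + ε1) := add_le_add hnn hnn
    _ ≤ ε := h4

/-- conjugates of a transformation with Rokhlin towers are dense -/
theorem dense {X : Type*} [MeasurableSpace X] [StandardBorelSpace X] (μ : Measure X)
    [IsProbabilityMeasure μ] (hμ : ∀ x, μ {x} = 0) {T S : X ≃ᵐ X} (hT : MeasurePreserving T μ μ)
    (hTow : HasTowers μ T) (hS : MeasurePreserving S μ μ) {m : ℕ} (A : Fin m → Set X)
    (hA : ∀ i, MeasurableSet (A i)) {ε : ℝ≥0∞} (hε : 0 < ε) :
    ∃ φ : X ≃ᵐ X, MeasurePreserving φ μ μ ∧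
      ∀ i, μ (symmDiff ((φ.symm.trans (T.trans φ)) '' A i) (S '' A i)) ≤ ε := by
  classical
  let q : X → (Fin m → Bool) := fun x i => decide (x ∈ A i)
  have hq : Measurable q := measurable_pi_lambda _ fun i => by
    refine measurable_to_bool ?_
    have : (fun x => q x i) ⁻¹' {true} = A i := by
      ext x
      simp [q]
    rw [this]
    exact hA i
  obtain ⟨φ, hφ, hφε⟩ := halmos μ hμ hT hTow hS hq hε
  refine ⟨φ, hφ, fun i => ?_⟩
  have h1 : symmDiff ((φ.symm.trans (T.trans φ)) '' A i) (S '' A i) ⊆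
      φ.symm ⁻¹' {x | q (S.symm (φ x)) ≠ q (φ (T.symm x))} := by
    intro z hz
    simp only [Set.mem_preimage, Set.mem_ofPred_eq, MeasurableEquiv.apply_symm_apply]
    intro heq
    have h2 : S.symm z ∈ A i ↔ φ (T.symm (φ.symm z)) ∈ A i := by
      have h3 := congrFun heq i
      simp only [q] at h3
      exact decide_eq_decide.1 h3
    have h4 : z ∈ (φ.symm.trans (T.trans φ)) '' A i ↔ φ (T.symm (φ.symm z)) ∈ A i := by
      constructor
      · rintro ⟨y, hy, rfl⟩
        simpa using hy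
      · intro hy
        exact ⟨_, hy, by simp⟩
    have h5 : z ∈ S '' A i ↔ S.symm z ∈ A i := by
      constructor
      · rintro ⟨y, hy, rfl⟩
        simpa using hy
      · intro hy
        exact ⟨_, hy, by simp⟩
    rw [Set.mem_symmDiff, h4, h5, h2] at hz
    tauto
  refine (measure_mono h1).trans ?_
  have h6 := (hφ.symm φ).measure_preimage_equiv {x | q (S.symm (φ x)) ≠ q (φ (T.symm x))}
  rw [h6]
  exact hφε

end Vale.Agent.P130.H454
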