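import Mathlib

/-!
# Isomorphism of standard nonatomic probability spaces
-/

open MeasureTheory Set Filter Topology ProbabilityTheory

namespace Vale.Agent.P130.H454

/-- an uncountable measurable set contains an uncountable measurable null set -/
theorem exists_null {Y : Type*} [MeasurableSpace Y] [StandardBorelSpace Y] (ν : Measure Y)
    [IsFiniteMeasure ν] {B : Set Y} (hB : MeasurableSet B) (hc : ¬ B.Countable) :
    ∃ C ⊆ B, MeasurableSet C ∧ ν C = 0 ∧ ¬ C.Countable := by
  have hBs : StandardBorelSpace B := hB.standardBorel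
  have hc1 : ¬ Countable B := by rwa [countable_coe_iff]
  have hR : ¬ Countable (ℝ × ℝ) := by
    intro h
    have : Countable ℝ := Function.Injective.countable (f := fun x : ℝ => (x, (0 : ℝ)))
      (fun a b h => (Prod.mk.inj h).1)
    exact not_countable (α := ℝ) this
  let e : B ≃ᵐ ℝ × ℝ := PolishSpace.measurableEquivOfNotCountable hc1 hR
  let C : ℝ → Set Y := fun t => Subtype.val '' (e ⁻¹' {p | p.1 = t})
  have hCm : ∀ t, MeasurableSet (C t) := fun t =>
    hB.subtype_image (e.measurable (measurable_fst (measurableSet_singleton t)))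
  have hCd : Pairwise (Function.onFun Disjoint C) := by
    intro s t hst
    rw [Function.onFun, Set.disjoint_left]
    rintro _ ⟨x, hx, rfl⟩ ⟨y, hy, hxy⟩
    have : x = y := Subtype.ext hxy.symm
    subst this
    exact hst (hx.symm.trans hy)
  have hcount : Set.Countable {t | 0 < ν (C t)} :=
    Measure.countable_meas_pos_of_disjoint_iUnion hCm hCd
  have : ∃ t : ℝ, t ∉ {t | 0 < ν (C t)} := by
    by_contra h
    push Not at h
    have h2 : {t | 0 < ν (C t)} = Set.univ := Set.eq_univ_of_forall h
    rw [h2] at hcount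
    exact not_countable (α := ℝ) (Set.countable_univ_iff.1 hcount)
  obtain ⟨t, ht⟩ := this
  refine ⟨C t, ?_, hCm t, ?_, ?_⟩
  · rintro _ ⟨x, _, rfl⟩
    exact x.2
  · simpa using ht
  · intro hcn
    have h1 : Function.Injective fun s : ℝ => (e.symm (t, s) : Y) := by
      intro s s' h
      have h2 := e.symm.injective (Subtype.ext h)
      exact (Prod.mk.inj h2).2
    have h3 : Set.range (fun s : ℝ => (e.symm (t, s) : Y)) ⊆ C t := by
      rintro _ ⟨s, rfl⟩
      exact ⟨e.symm (t, s), by simp, rfl⟩
    have h4 := hcn.mono h3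
    rw [← Set.image_univ] at h4
    exact not_countable (α := ℝ) (Set.countable_univ_iff.1
      (Set.countable_of_injective_of_countable_image h1.injOn h4))

/-- an almost injective measure preserving map can be changed on a null set to an isomorphism -/
theorem exists_equiv_of_injOn {X Y : Type*} [MeasurableSpace X] [StandardBorelSpace X]
    [MeasurableSpace Y] [StandardBorelSpace Y] (μ : Measure X) (ν : Measure Y)
    [IsProbabilityMeasure μ] [IsProbabilityMeasure ν] (hna : ∀ x, μ {x} = 0) {f : X → Y}
    (hf : MeasurePreserving f μ ν) {A : Set X} (hA : MeasurableSet A) (hA0 : μ Aᶜ = 0)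
    (hinj : Set.InjOn f A) : ∃ φ : X ≃ᵐ Y, MeasurePreserving φ μ ν ∧ φ =ᵐ[μ] f := by
  classical
  have hBm : MeasurableSet (f '' A) := hA.image_of_measurable_injOn hf.measurable hinj
  have hAc : ¬ A.Countable := by
    intro h
    have h1 : μ A = 0 := (measure_null_iff_singleton h).2 fun x _ => hna x
    have h2 : μ Set.univ ≤ μ A + μ Aᶜ := by
      rw [← Set.union_compl_self A]
      exact measure_union_le _ _
    rw [h1, hA0, measure_univ] at h2
    simp at h2
  have hBc : ¬ (f '' A).Countable := fun h => hAc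
    (Set.countable_of_injective_of_countable_image hinj h)
  obtain ⟨C, hCB, hCm, hC0, hCc⟩ := exists_null ν hBm hBc
  set A' := A ∩ f ⁻¹' Cᶜ with hA'
  have hA'm : MeasurableSet A' := hA.inter (hf.measurable hCm.compl)
  have hA'0 : μ A'ᶜ = 0 := by
    have h1 : A'ᶜ ⊆ Aᶜ ∪ f ⁻¹' C := by
      intro x hx
      by_cases hxA : x ∈ A
      · right
        by_contra h
        exact hx ⟨hxA, h⟩
      · left; exact hxA
    refine measure_mono_null h1 (measure_union_null hA0 ?_)
    rw [hf.measure_preimage hCm.nullMeasurableSet, hC0]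
  let g : A' → Y := fun x => f x
  have hgm : Measurable g := hf.measurable.comp measurable_subtype_coe
  have hgi : Function.Injective g := fun x y h => Subtype.ext (hinj x.2.1 y.2.1 h)
  have hA's : StandardBorelSpace A' := hA'm.standardBorel
  have hge : MeasurableEmbedding g := hgm.measurableEmbedding hgi
  have hrm : MeasurableSet (Set.range g) := hge.measurableSet_range
  have hrs : StandardBorelSpace ((Set.range g)ᶜ : Set Y) := hrm.compl.standardBorel
  have hAcs : StandardBorelSpace (A'ᶜ : Set X) := hA'm.compl.standardBorel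
  have hu1 : ¬ Countable (A'ᶜ : Set X) := by
    rw [countable_coe_iff]
    intro h
    apply hCc
    refine (h.image f).mono ?_
    intro y hy
    obtain ⟨x, hx, rfl⟩ := hCB hy
    exact ⟨x, fun h => h.2 hy, rfl⟩
  have hu2 : ¬ Countable ((Set.range g)ᶜ : Set Y) := by
    rw [countable_coe_iff]
    intro h
    apply hCc
    refine h.mono ?_
    rintro y hy ⟨x, rfl⟩
    exact x.2.2 hy
  let e2 : (A'ᶜ : Set X) ≃ᵐ ((Set.range g)ᶜ : Set Y) :=
    PolishSpace.measurableEquivOfNotCountable hu1 hu2
  let φ : X ≃ᵐ Y := (MeasurableEquiv.sumCompl hA'm).symm.trans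
    ((MeasurableEquiv.sumCongr hge.equivRange e2).trans (MeasurableEquiv.sumCompl hrm))
  have hφ : ∀ x ∈ A', φ x = f x := by
    intro x hx
    have h1 : (MeasurableEquiv.sumCompl hA'm).symm x = Sum.inl ⟨x, hx⟩ := by
      rw [MeasurableEquiv.symm_apply_eq]
      rfl
    show (MeasurableEquiv.sumCompl hrm) ((MeasurableEquiv.sumCongr hge.equivRange e2)
      ((MeasurableEquiv.sumCompl hA'm).symm x)) = f x
    rw [h1]
    show ((hge.equivRange ⟨x, hx⟩ : Set.range g) : Y) = f x
    rw [hge.equivRange_apply]
  have hae : φ =ᵐ[μ] f := by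
    have : ∀ᵐ x ∂μ, x ∈ A' := by
      rw [ae_iff]
      exact hA'0
    filter_upwards [this] with x hx using hφ x hx
  refine ⟨φ, ⟨φ.measurable, ?_⟩, hae⟩
  rw [Measure.map_congr hae, hf.map_eq]

/-- the distribution function of a nonatomic probability measure is continuous -/
theorem continuous_cdf (μ : Measure ℝ) [IsProbabilityMeasure μ] (hna : ∀ x, μ {x} = 0) :
    Continuous (cdf μ) := by
  rw [continuous_iff_continuousAt]
  intro x
  rw [(cdf μ).mono.continuousAt_iff_leftLim_eq_rightLim, (cdf μ).rightLim_eq]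
  have h := (cdf μ).measure_singleton x
  rw [measure_cdf, hna x] at h
  have h1 := ENNReal.ofReal_eq_zero.1 h.symm
  have h2 := (cdf μ).mono.leftLim_le (le_refl x)
  linarith

/-- the probability integral transform -/
theorem map_cdf (μ : Measure ℝ) [IsProbabilityMeasure μ] (hna : ∀ x, μ {x} = 0) :
    μ.map (cdf μ) = volume.restrict (Set.Icc 0 1) := by
  have hc := continuous_cdf μ hna
  have hm : Measurable (cdf μ) := hc.measurable
  have hpr : IsProbabilityMeasure (μ.map (cdf μ)) := Measure.isProbabilityMeasure_map hm.aemeasurable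
  refine Measure.ext_of_Iic _ _ fun t => ?_
  rw [Measure.map_apply hm measurableSet_Iic, Measure.restrict_apply measurableSet_Iic]
  rcases lt_or_ge t 0 with ht | ht
  · have h1 : cdf μ ⁻¹' Set.Iic t = ∅ := by
      ext x
      simp only [Set.mem_preimage, Set.mem_Iic, Set.mem_empty_iff_false, iff_false, not_le]
      exact ht.trans_le (cdf_nonneg μ x)
    have h2 : Set.Iic t ∩ Set.Icc (0 : ℝ) 1 = ∅ := by
      ext x
      simp only [Set.mem_inter_iff, Set.mem_Iic, Set.mem_Icc, Set.mem_empty_iff_false, iff_false]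
      rintro ⟨h3, h4, _⟩
      linarith
    rw [h1, h2]
    simp
  rcases le_or_gt 1 t with ht1 | ht1
  · have h1 : cdf μ ⁻¹' Set.Iic t = Set.univ := by
      ext x
      simp only [Set.mem_preimage, Set.mem_Iic, Set.mem_univ, iff_true]
      exact (cdf_le_one μ x).trans ht1
    have h2 : Set.Iic t ∩ Set.Icc (0 : ℝ) 1 = Set.Icc 0 1 := by
      ext x
      simp only [Set.mem_inter_iff, Set.mem_Iic, Set.mem_Icc, and_iff_right_iff_imp]
      rintro ⟨_, h4⟩
      linarith
    rw [h1, h2]
    simp
  · have h2 : Set.Iic t ∩ Set.Icc (0 : ℝ) 1 = Set.Icc 0 t := by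
      ext x
      simp only [Set.mem_inter_iff, Set.mem_Iic, Set.mem_Icc]
      constructor
      · rintro ⟨h3, h4, _⟩
        exact ⟨h4, h3⟩
      · rintro ⟨h3, h4⟩
        exact ⟨h4, h3, by linarith⟩
    rw [h2, Real.volume_Icc, sub_zero]
    rcases (cdf μ ⁻¹' Set.Iic t).eq_empty_or_nonempty with he | hne
    · -- then `t = 0`
      have h0 : t ≤ 0 := by
        by_contra h
        push Not at h
        have := (tendsto_cdf_atBot μ).eventually (gt_mem_nhds h)
        obtain ⟨x, hx⟩ := this.exists
        have : x ∈ cdf μ ⁻¹' Set.Iic t := le_of_lt hx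
        rw [he] at this
        exact this
      have : t = 0 := le_antisymm h0 ht
      rw [he, this]
      simp
    · have hbdd : BddAbove (cdf μ ⁻¹' Set.Iic t) := by
        obtain ⟨y, hy⟩ := ((tendsto_cdf_atTop μ).eventually (lt_mem_nhds ht1)).exists
        refine ⟨y, fun x hx => ?_⟩
        by_contra h
        push Not at h
        have := (monotone_cdf μ) h.le
        have h3 : cdf μ x ≤ t := hx
        linarith
      have hcl : IsClosed (cdf μ ⁻¹' Set.Iic t) := isClosed_Iic.preimage hc
      set x0 := sSup (cdf μ ⁻¹' Set.Iic t) with hx0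
      have hx0m : cdf μ x0 ≤ t := hcl.csSup_mem hne hbdd
      have hIic : cdf μ ⁻¹' Set.Iic t = Set.Iic x0 := by
        ext x
        constructor
        · intro hx
          exact le_csSup hbdd hx
        · intro hx
          exact ((monotone_cdf μ) hx).trans hx0m
      have hge : t ≤ cdf μ x0 := by
        have h3 : Tendsto (cdf μ) (𝓝[>] x0) (𝓝 (cdf μ x0)) := (hc.tendsto x0).mono_left
          nhdsWithin_le_nhds
        refine ge_of_tendsto h3 ?_
        filter_upwards [self_mem_nhdsWithin] with x hx
        by_contra h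
        push Not at h
        have : x ∈ cdf μ ⁻¹' Set.Iic t := le_of_lt h
        rw [hIic] at this
        exact absurd (Set.mem_Ioi.1 hx) (not_lt.2 this)
      rw [hIic, ← ofReal_cdf μ x0, le_antisymm hx0m hge]

/-- every standard nonatomic probability space is isomorphic to the unit interval -/
theorem exists_equiv_real {X : Type*} [MeasurableSpace X] [StandardBorelSpace X] (μ : Measure X)
    [IsProbabilityMeasure μ] (hna : ∀ x, μ {x} = 0) :
    ∃ φ : X ≃ᵐ ℝ, MeasurePreserving φ μ (volume.restrict (Set.Icc 0 1)) := by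
  have hX : ¬ Countable X := by
    intro h
    have h1 : μ Set.univ = 0 := (measure_null_iff_singleton (Set.countable_univ)).2 fun x _ => hna x
    rw [measure_univ] at h1
    exact one_ne_zero h1
  have hR : ¬ Countable ℝ := not_countable
  let e : X ≃ᵐ ℝ := PolishSpace.measurableEquivOfNotCountable hX hR
  set m : Measure ℝ := μ.map e with hm
  have hmp : IsProbabilityMeasure m := Measure.isProbabilityMeasure_map e.measurable.aemeasurable
  have hmn : ∀ x, m {x} = 0 := by
    intro x
    rw [hm, e.map_apply]
    have : e ⁻¹' {x} = {e.symm x} := by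
      ext y
      simp only [Set.mem_preimage, Set.mem_singleton_iff]
      exact ⟨fun h => by rw [← h, e.symm_apply_apply], fun h => by rw [h, e.apply_symm_apply]⟩
    rw [this]
    exact hna _
  have hc := continuous_cdf m hmn
  have hmap := map_cdf m hmn
  set A : Set ℝ := {x | ∀ r : ℚ, (r : ℝ) < x → cdf m r ≠ cdf m x} with hA
  have hAm : MeasurableSet A := by
    have : A = ⋂ r : ℚ, {x : ℝ | (r : ℝ) < x ∧ cdf m r = cdf m x}ᶜ := by
      ext x
      simp only [hA, Set.mem_ofPred_eq, Set.mem_iInter, Set.mem_compl_iff, not_and, ne_eq]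
    rw [this]
    refine MeasurableSet.iInter fun r => (MeasurableSet.inter measurableSet_Ioi ?_).compl
    exact (isClosed_eq continuous_const hc).measurableSet
  have hA0 : m Aᶜ = 0 := by
    have h1 : Aᶜ ⊆ ⋃ r : ℚ, cdf m ⁻¹' {cdf m r} := by
      intro x hx
      simp only [hA, Set.mem_compl_iff, Set.mem_ofPred_eq, not_forall, not_not] at hx
      obtain ⟨r, _, h⟩ := hx
      exact Set.mem_iUnion.2 ⟨r, h.symm⟩
    refine measure_mono_null h1 (measure_iUnion_null fun r => ?_)
    rw [← Measure.map_apply hc.measurable (measurableSet_singleton _), hmap]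
    refine le_antisymm ((Measure.restrict_apply_le _ _).trans ?_) bot_le
    simp
  have hinj : Set.InjOn (cdf m) A := by
    have key : ∀ x ∈ A, ∀ y ∈ A, x < y → cdf m x ≠ cdf m y := by
      intro x _ y hy hxy h
      obtain ⟨r, h1, h2⟩ := exists_rat_btwn hxy
      refine hy r h2 (le_antisymm (monotone_cdf m h2.le) ?_)
      rw [← h]
      exact monotone_cdf m h1.le
    intro x hx y hy h
    rcases lt_trichotomy x y with h1 | h1 | h1
    · exact absurd h (key x hx y hy h1)
    · exact h1
    · exact absurd h.symm (key y hy x hx h1)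
  have hpr : IsProbabilityMeasure (volume.restrict (Set.Icc (0 : ℝ) 1)) := ⟨by simp⟩
  have key : MeasurePreserving (fun x => cdf m (e x)) μ (volume.restrict (Set.Icc 0 1)) := by
    refine ⟨hc.measurable.comp e.measurable, ?_⟩
    rw [← hmap, hm, Measure.map_map hc.measurable e.measurable]
    rfl
  obtain ⟨φ, hφ, _⟩ := exists_equiv_of_injOn μ _ hna key (A := e ⁻¹' A) (e.measurable hAm)
    (by rw [← Set.preimage_compl, ← e.map_apply]; exact hA0)
    (fun x hx y hy h => e.injective (hinj hx hy h))
  exact ⟨φ, hφ⟩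

/-- **The isomorphism theorem**: any two standard nonatomic probability spaces are isomorphic. -/
theorem exists_equiv {X Y : Type*} [MeasurableSpace X] [StandardBorelSpace X]
    [MeasurableSpace Y] [StandardBorelSpace Y] (μ : Measure X) (ν : Measure Y)
    [IsProbabilityMeasure μ] [IsProbabilityMeasure ν] (hμ : ∀ x, μ {x} = 0)
    (hν : ∀ y, ν {y} = 0) : ∃ φ : X ≃ᵐ Y, MeasurePreserving φ μ ν := by
  obtain ⟨φ, hφ⟩ := exists_equiv_real μ hμ
  obtain ⟨ψ, hψ⟩ := exists_equiv_real ν hν
  exact ⟨φ.trans ψ.symm, (hψ.symm ψ).comp hφ⟩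

end Vale.Agent.P130.H454
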