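import Vale.Agent.P130.H454.Iso

/-!
# Isomorphisms that respect finitely many labels
-/

open MeasureTheory Set Filter Topology ProbabilityTheory
open scoped ENNReal

namespace Vale.Agent.P130.H454

theorem cond_na {X : Type*} [MeasurableSpace X] {μ : Measure X} (h : ∀ x, μ {x} = 0) (A : Set X)
    (x : X) : (μ[|A]) {x} = 0 := by
  unfold ProbabilityTheory.cond
  rw [Measure.smul_apply, smul_eq_mul]
  have : μ.restrict A {x} = 0 := le_antisymm ((Measure.restrict_apply_le _ _).trans_eq (h x)) bot_le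
  rw [this, mul_zero]

/-- measure of a set as a sum over the labels -/
theorem sum_label {X I : Type*} [MeasurableSpace X] [Fintype I] [MeasurableSpace I]
    [MeasurableSingletonClass I] (μ : Measure X) {p : X → I} (hp : Measurable p) (Z : Set X) :
    ∑ i, μ (p ⁻¹' {i} ∩ Z) = μ Z := by
  have h := sum_measure_preimage_singleton (μ := μ.restrict Z) (f := p) Finset.univ
    (fun i _ => hp (measurableSet_singleton i))
  rw [Finset.coe_univ, Set.preimage_univ, Measure.restrict_apply_univ] at h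
  rw [← h]
  refine Finset.sum_congr rfl fun i _ => ?_
  rw [Measure.restrict_apply (hp (measurableSet_singleton i))]

theorem exists_label_equiv {X Y I : Type*} [MeasurableSpace X] [StandardBorelSpace X]
    [MeasurableSpace Y] [StandardBorelSpace Y] [Fintype I] [MeasurableSpace I]
    [MeasurableSingletonClass I] (μ : Measure X) (ν : Measure Y)
    [IsProbabilityMeasure μ] [IsProbabilityMeasure ν] (hμ : ∀ x, μ {x} = 0)
    (hν : ∀ y, ν {y} = 0) {p : X → I} (hp : Measurable p) {p' : Y → I} (hp' : Measurable p')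
    (h : ∀ i, μ (p ⁻¹' {i}) = ν (p' ⁻¹' {i})) :
    ∃ φ : X ≃ᵐ Y, MeasurePreserving φ μ ν ∧ ∀ᵐ x ∂μ, p' (φ x) = p x := by
  classical
  have hex : ∀ i, ∃ φ : X ≃ᵐ Y, μ (p ⁻¹' {i}) ≠ 0 →
      MeasurePreserving φ (μ[|p ⁻¹' {i}]) (ν[|p' ⁻¹' {i}]) := by
    intro i
    by_cases hi : μ (p ⁻¹' {i}) = 0
    · obtain ⟨φ, _⟩ := exists_equiv μ ν hμ hν
      exact ⟨φ, fun h => absurd hi h⟩
    · have h1 : IsProbabilityMeasure (μ[|p ⁻¹' {i}]) := cond_isProbabilityMeasure hi
      have h2 : IsProbabilityMeasure (ν[|p' ⁻¹' {i}]) :=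
        cond_isProbabilityMeasure (by rwa [← h i])
      obtain ⟨φ, hφ⟩ := exists_equiv (μ[|p ⁻¹' {i}]) (ν[|p' ⁻¹' {i}]) (cond_na hμ _) (cond_na hν _)
      exact ⟨φ, fun _ => hφ⟩
  choose φ hφ using hex
  have hpm : ∀ i, MeasurableSet (p ⁻¹' {i}) := fun i => hp (measurableSet_singleton i)
  have hpm' : ∀ i, MeasurableSet (p' ⁻¹' {i}) := fun i => hp' (measurableSet_singleton i)
  have key : ∀ i, ∀ Z : Set Y, MeasurableSet Z →
      μ (p ⁻¹' {i} ∩ φ i ⁻¹' Z) = ν (p' ⁻¹' {i} ∩ Z) := by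
    intro i Z hZ
    by_cases hi : μ (p ⁻¹' {i}) = 0
    · have h1 : ν (p' ⁻¹' {i}) = 0 := by rw [← h i, hi]
      rw [measure_mono_null Set.inter_subset_left hi, measure_mono_null Set.inter_subset_left h1]
    · have h2 := (hφ i hi).measure_preimage hZ.nullMeasurableSet
      have h3 := cond_mul_eq_inter (μ := μ) (hpm i) (φ i ⁻¹' Z)
      have h4 := cond_mul_eq_inter (μ := ν) (hpm' i) Z
      rw [← h3, ← h4, h2, h i]
  set f : X → Y := fun x => φ (p x) x with hf
  have hfm : Measurable f := by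
    have h1 : Measurable fun q : I × X => φ q.1 q.2 :=
      measurable_from_prod_countable_right fun i => (φ i).measurable
    exact h1.comp (hp.prodMk measurable_id)
  have hfp : MeasurePreserving f μ ν := by
    refine ⟨hfm, ?_⟩
    ext Z hZ
    rw [Measure.map_apply hfm hZ, ← sum_label μ hp, ← sum_label ν hp']
    refine Finset.sum_congr rfl fun i _ => ?_
    rw [← key i Z hZ]
    congr 1
    ext x
    simp only [Set.mem_inter_iff, Set.mem_preimage, Set.mem_singleton_iff]
    constructor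
    · rintro ⟨h1, h2⟩
      refine ⟨h1, ?_⟩
      rw [← h1]
      exact h2
    · rintro ⟨h1, h2⟩
      refine ⟨h1, ?_⟩
      simp only [hf, h1]
      exact h2
  set A : Set X := ⋃ i, (p ⁻¹' {i} ∩ φ i ⁻¹' (p' ⁻¹' {i})) with hA
  have hAmem : ∀ x, x ∈ A ↔ p' (f x) = p x := by
    intro x
    simp only [hA, Set.mem_iUnion, Set.mem_inter_iff, Set.mem_preimage, Set.mem_singleton_iff]
    constructor
    · rintro ⟨i, h1, h2⟩
      simp only [hf, h1]
      exact h2
    · intro h1
      exact ⟨p x, rfl, h1⟩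
  have hAm : MeasurableSet A := MeasurableSet.iUnion fun i =>
    (hpm i).inter ((φ i).measurable (hpm' i))
  have hA0 : μ Aᶜ = 0 := by
    rw [← sum_label μ hp]
    refine Finset.sum_eq_zero fun i _ => ?_
    have h1 : p ⁻¹' {i} ∩ Aᶜ ⊆ p ⁻¹' {i} ∩ φ i ⁻¹' (p' ⁻¹' {i})ᶜ := by
      rintro x ⟨hx1, hx2⟩
      refine ⟨hx1, fun hx3 => hx2 ?_⟩
      exact Set.mem_iUnion.2 ⟨i, hx1, hx3⟩
    refine measure_mono_null h1 ?_
    rw [key i _ (hpm' i).compl, Set.inter_compl_self, measure_empty]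
  have hinj : Set.InjOn f A := by
    intro x hx y hy hxy
    have h1 : p x = p y := by
      rw [← (hAmem x).1 hx, ← (hAmem y).1 hy, hxy]
    have h2 : φ (p x) x = φ (p x) y := by
      have h3 : φ (p x) x = φ (p y) y := hxy
      rw [h3, h1]
    exact (φ (p x)).injective h2
  obtain ⟨ψ, hψ, hψf⟩ := exists_equiv_of_injOn μ ν hμ hfp hAm hA0 hinj
  refine ⟨ψ, hψ, ?_⟩
  have h1 : ∀ᵐ x ∂μ, x ∈ A := by
    rw [ae_iff]
    exact hA0
  filter_upwards [h1, hψf] with x hx hx2
  rw [hx2]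
  exact (hAmem x).1 hx

/-- a set that contains the proportion `c` of every label class -/
theorem exists_prop {X I : Type*} [MeasurableSpace X] [StandardBorelSpace X] [Fintype I]
    [MeasurableSpace I] [MeasurableSingletonClass I] (μ : Measure X) [IsProbabilityMeasure μ]
    (hμ : ∀ x, μ {x} = 0) {p : X → I} (hp : Measurable p) {c : ℝ≥0∞} (hc : c ≤ 1) :
    ∃ E : Set X, MeasurableSet E ∧ ∀ i, μ (p ⁻¹' {i} ∩ E) = c * μ (p ⁻¹' {i}) := by
  classical
  have hpm : ∀ i, MeasurableSet (p ⁻¹' {i}) := fun i => hp (measurableSet_singleton i)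
  have hex : ∀ i, ∃ V : Set X, MeasurableSet V ∧ V ⊆ p ⁻¹' {i} ∧ μ V = c * μ (p ⁻¹' {i}) := by
    intro i
    by_cases hi : μ (p ⁻¹' {i}) = 0
    · exact ⟨∅, MeasurableSet.empty, Set.empty_subset _, by rw [hi, measure_empty, mul_zero]⟩
    · have h1 : IsProbabilityMeasure (μ[|p ⁻¹' {i}]) := cond_isProbabilityMeasure hi
      obtain ⟨φ, hφ⟩ := exists_equiv_real (μ[|p ⁻¹' {i}]) (cond_na hμ _)
      refine ⟨p ⁻¹' {i} ∩ φ ⁻¹' (Set.Icc 0 c.toReal), (hpm i).inter (φ.measurable measurableSet_Icc),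
        Set.inter_subset_left, ?_⟩
      rw [← cond_mul_eq_inter (μ := μ) (hpm i),
        hφ.measure_preimage measurableSet_Icc.nullMeasurableSet,
        Measure.restrict_apply measurableSet_Icc]
      congr 1
      have hc1 : c.toReal ≤ 1 := by
        have := ENNReal.toReal_mono ENNReal.one_ne_top hc
        simpa using this
      have h2 : Set.Icc (0 : ℝ) c.toReal ∩ Set.Icc 0 1 = Set.Icc 0 c.toReal :=
        Set.inter_eq_left.2 (Set.Icc_subset_Icc_right hc1)
      rw [h2, Real.volume_Icc, sub_zero, ENNReal.ofReal_toReal (ne_top_of_le_ne_top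
        ENNReal.one_ne_top hc)]
  choose V hVm hVs hVc using hex
  refine ⟨⋃ i, V i, MeasurableSet.iUnion hVm, fun i => ?_⟩
  rw [← hVc i]
  congr 1
  ext x
  simp only [Set.mem_inter_iff, Set.mem_preimage, Set.mem_singleton_iff, Set.mem_iUnion]
  constructor
  · rintro ⟨h1, j, hj⟩
    have h2 : p x = j := hVs j hj
    rw [← h1, h2]
    exact hj
  · intro h1
    exact ⟨hVs i h1, i, h1⟩

end Vale.Agent.P130.H454
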