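import Vale.Agent.P130.H454.Transfer
import Vale.Agent.P130.H454.Defs

/-!
# From the orthonormal basis to the unitary equivalence
-/

open MeasureTheory Set Filter Topology ProbabilityTheory
open scoped ENNReal

namespace Vale.Agent.P130.H454

variable {X : Type*} [MeasurableSpace X] {μ : Measure X}

theorem fourierCoeff_shift (φ : UnitAddCircle → ℂ) (n : ℤ) :
    fourierCoeff (fun t => (fourier 1 t : ℂ) * φ t) n = fourierCoeff φ (n - 1) := by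
  unfold fourierCoeff
  refine integral_congr_ae (Eventually.of_forall fun t => ?_)
  simp only [smul_eq_mul]
  rw [← mul_assoc, ← fourier_add]
  congr 3
  ring

theorem spectrum_aux {T : X ≃ᵐ X} (hT : MeasurePreserving T μ μ) (E : Submodule ℂ (Lp ℂ 2 μ))
    (hmem : ∀ g : Lp ℂ 2 μ, g ∈ E ↔ ∫ x, g x ∂μ = 0) (f : X → ℂ) (b : HilbertBasis ℤ ℂ E)
    (hb : ∀ n : ℤ, ((b n : Lp ℂ 2 μ) : X → ℂ) =ᵐ[μ]
      fun x => f (((T.toEquiv : Equiv.Perm X) ^ n) x)) :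
    ∃ W : Lp ℂ 2 (AddCircle.haarAddCircle : Measure UnitAddCircle) ≃ₗᵢ[ℂ] E,
      ∀ φ ψ : Lp ℂ 2 (AddCircle.haarAddCircle : Measure UnitAddCircle),
        (∀ᵐ t ∂AddCircle.haarAddCircle, ψ t = fourier 1 t * φ t) →
        ∀ᵐ x ∂μ, (W ψ : Lp ℂ 2 μ) x = (W φ : Lp ℂ 2 μ) (T x) := by
  obtain ⟨W, hW⟩ : ∃ W : Lp ℂ 2 (AddCircle.haarAddCircle : Measure UnitAddCircle) ≃ₗᵢ[ℂ] E,
      W = (fourierBasis (T := (1 : ℝ))).repr.trans b.repr.symm := ⟨_, rfl⟩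
  refine ⟨W, fun φ ψ hψ => ?_⟩
  let c : Lp ℂ 2 μ →ₗᵢ[ℂ] Lp ℂ 2 μ := Lp.compMeasurePreservingₗᵢ ℂ T hT
  have hc : ∀ g : Lp ℂ 2 μ, (c g : X → ℂ) =ᵐ[μ] fun x => g (T x) := fun g =>
    Lp.coeFn_compMeasurePreserving g hT
  have hcE : ∀ g : Lp ℂ 2 μ, g ∈ E → c g ∈ E := by
    intro g hg
    rw [hmem] at hg ⊢
    rw [integral_congr_ae (hc g), hT.integral_comp T.measurableEmbedding (fun x => g x), hg]
  have hcb : ∀ n : ℤ, c (b (n - 1) : Lp ℂ 2 μ) = (b n : Lp ℂ 2 μ) := by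
    intro n
    refine Lp.ext ?_
    filter_upwards [hc (b (n - 1)), hb n, hT.quasiMeasurePreserving.ae (hb (n - 1))] with x h1 h2 h3
    rw [h1, h2, h3]
    have h4 : ((T.toEquiv : Equiv.Perm X) ^ n) x = ((T.toEquiv : Equiv.Perm X) ^ (n - 1)) (T x) := by
      have h5 : (T.toEquiv : Equiv.Perm X) ^ n = (T.toEquiv : Equiv.Perm X) ^ (n - 1) *
          (T.toEquiv : Equiv.Perm X) := by
        rw [← zpow_add_one, sub_add_cancel]
      rw [h5]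
      rfl
    rw [h4]
  have hrep : ∀ (θ : Lp ℂ 2 (AddCircle.haarAddCircle : Measure UnitAddCircle)) (n : ℤ),
      b.repr (W θ) n = fourierCoeff θ n := by
    intro θ n
    rw [hW, LinearIsometryEquiv.trans_apply, LinearIsometryEquiv.apply_symm_apply,
      fourierBasis_repr]
  have key : W ψ = ⟨c (W φ : Lp ℂ 2 μ), hcE _ (W φ).2⟩ := by
    refine b.repr.injective ?_
    ext n
    rw [hrep, HilbertBasis.repr_apply_apply]
    have h6 : inner ℂ (b n) (⟨c (W φ : Lp ℂ 2 μ), hcE _ (W φ).2⟩ : E) =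
        inner ℂ (b n : Lp ℂ 2 μ) (c (W φ : Lp ℂ 2 μ)) := rfl
    have h7 : inner ℂ (b (n - 1) : Lp ℂ 2 μ) (W φ : Lp ℂ 2 μ) = inner ℂ (b (n - 1)) (W φ) := rfl
    rw [h6, ← hcb n, LinearIsometry.inner_map_map, h7, ← HilbertBasis.repr_apply_apply, hrep,
      ← fourierCoeff_shift]
    exact congrFun (fourierCoeff_congr_ae hψ) n
  rw [key]
  exact hc _

theorem spectrum_of_basis [IsFiniteMeasure μ] {T : X ≃ᵐ X} (hT : MeasurePreserving T μ μ)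
    (h : SimpleLebesgue μ T) : SimpleLebesgueSpectrum μ T := by
  classical
  obtain ⟨f, b, hb⟩ := h
  have hmem : ∀ g : Lp ℂ 2 μ, g ∈ (Submodule.span ℂ {Lp.const 2 μ (1 : ℂ)})ᗮ ↔
      ∫ x, g x ∂μ = 0 := fun g => by
    rw [Submodule.mem_orthogonal_singleton_iff_inner_right, inner_const]
  obtain ⟨W, hW⟩ := spectrum_aux hT _ hmem f b hb
  let m : Measure UnitAddCircle := AddCircle.haarAddCircle
  let V : (UnitAddCircle → ℂ) → X → ℂ := fun φ =>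
    if hφ : MemLp φ 2 m then ((W (hφ.toLp φ) : Lp ℂ 2 μ) : X → ℂ) else 0
  have hV : ∀ {φ : UnitAddCircle → ℂ} (hφ : MemLp φ 2 m),
      V φ = ((W (hφ.toLp φ) : Lp ℂ 2 μ) : X → ℂ) := fun hφ => dif_pos hφ
  have hmul : ∀ {φ : UnitAddCircle → ℂ}, MemLp φ 2 m →
      MemLp (fun t => (fourier 1 t : ℂ) * φ t) 2 m := by
    intro φ hφ
    refine hφ.of_le ((map_continuous (fourier 1)).aestronglyMeasurable.mul
      hφ.aestronglyMeasurable) (Eventually.of_forall fun t => ?_)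
    have : ‖(fourier 1 t : ℂ)‖ = 1 := by
      rw [fourier_apply]
      exact Circle.norm_coe _
    rw [norm_mul, this, one_mul]
  refine ⟨m, V, rfl, fun φ ψ hφ hψ c d => ?_, fun φ hφ => ?_, fun g hg h0 => ?_, fun φ hφ => ?_⟩
  · have h1 : MemLp (fun t => c * φ t + d * ψ t) 2 m := (hφ.const_mul c).add (hψ.const_mul d)
    have e1 : h1.toLp _ = c • hφ.toLp φ + d • hψ.toLp ψ := by
      refine Lp.ext ?_
      filter_upwards [h1.coeFn_toLp, Lp.coeFn_add (c • hφ.toLp φ) (d • hψ.toLp ψ),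
        Lp.coeFn_smul c (hφ.toLp φ), Lp.coeFn_smul d (hψ.toLp ψ), hφ.coeFn_toLp,
        hψ.coeFn_toLp] with t a1 a2 a3 a4 a5 a6
      rw [a1, a2, Pi.add_apply, a3, a4, Pi.smul_apply, Pi.smul_apply, a5, a6]
      rfl
    rw [hV hφ, hV hψ, hV h1, e1, map_add, map_smul, map_smul]
    show ((c • (W (hφ.toLp φ) : Lp ℂ 2 μ) + d • (W (hψ.toLp ψ) : Lp ℂ 2 μ) : Lp ℂ 2 μ) :
      X → ℂ) =ᵐ[μ] _
    filter_upwards [Lp.coeFn_add (c • (W (hφ.toLp φ) : Lp ℂ 2 μ))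
      (d • (W (hψ.toLp ψ) : Lp ℂ 2 μ)), Lp.coeFn_smul c (W (hφ.toLp φ) : Lp ℂ 2 μ),
      Lp.coeFn_smul d (W (hψ.toLp ψ) : Lp ℂ 2 μ)] with x a2 a3 a4
    rw [a2, Pi.add_apply, a3, a4]
    rfl
  · rw [hV hφ]
    refine ⟨Lp.memLp _, (hmem _).1 (W (hφ.toLp φ)).2, ?_⟩
    have e1 : ‖W (hφ.toLp φ)‖ = ‖hφ.toLp φ‖ := W.norm_map _
    have e2 : ‖(W (hφ.toLp φ) : Lp ℂ 2 μ)‖ = ‖hφ.toLp φ‖ := e1
    rw [Lp.norm_def, Lp.norm_toLp] at e2
    exact (ENNReal.toReal_eq_toReal_iff' (Lp.eLpNorm_ne_top _) hφ.2.ne).1 e2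
  · have hgE : hg.toLp g ∈ (Submodule.span ℂ {Lp.const 2 μ (1 : ℂ)})ᗮ := by
      rw [hmem, integral_congr_ae hg.coeFn_toLp, h0]
    refine ⟨(W.symm ⟨hg.toLp g, hgE⟩ : Lp ℂ 2 m), Lp.memLp _, ?_⟩
    rw [hV (Lp.memLp _), Lp.toLp_coeFn, LinearIsometryEquiv.apply_symm_apply]
    exact hg.coeFn_toLp
  · rw [hV hφ, hV (hmul hφ)]
    refine hW _ _ ?_
    filter_upwards [(hmul hφ).coeFn_toLp, hφ.coeFn_toLp] with t a1 a2
    rw [a1, a2]

end Vale.Agent.P130.H454
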