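import Vale.Agent.P130.H454.Halmos

/-!
# Transport of the properties of a transformation by an isomorphism
-/

open MeasureTheory Set Filter Topology ProbabilityTheory
open scoped ENNReal

namespace Vale.Agent.P130.H454

variable {X Y : Type*} [MeasurableSpace X] [MeasurableSpace Y] {μ : Measure X} {ν : Measure Y}

/-- the conjugate of `T` by `φ` -/
def cj (φ : X ≃ᵐ Y) (T : X ≃ᵐ X) : Y ≃ᵐ Y := φ.symm.trans (T.trans φ)

theorem cj_apply (φ : X ≃ᵐ Y) (T : X ≃ᵐ X) (y : Y) : cj φ T y = φ (T (φ.symm y)) := rfl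

theorem cj_symm_apply (φ : X ≃ᵐ Y) (T : X ≃ᵐ X) (y : Y) :
    (cj φ T).symm y = φ (T.symm (φ.symm y)) := rfl

theorem cj_zpow (φ : X ≃ᵐ Y) (T : X ≃ᵐ X) (n : ℤ) (y : Y) :
    (((cj φ T).toEquiv : Equiv.Perm Y) ^ n) y = φ (((T.toEquiv : Equiv.Perm X) ^ n) (φ.symm y)) := by
  have h1 : ((cj φ T).toEquiv : Equiv.Perm Y) = φ.toEquiv.permCongrHom (T.toEquiv : Equiv.Perm X) := by
    ext y
    rfl
  rw [h1, ← map_zpow]
  rfl

theorem cj_iter (φ : X ≃ᵐ Y) (T : X ≃ᵐ X) (n : ℕ) (y : Y) :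
    (cj φ T)^[n] y = φ (T^[n] (φ.symm y)) := by
  induction n generalizing y with
  | zero => simp
  | succ n ih =>
    rw [Function.iterate_succ_apply, ih, cj_apply, Function.iterate_succ_apply, φ.symm_apply_apply]

theorem cj_symm_iter (φ : X ≃ᵐ Y) (T : X ≃ᵐ X) (n : ℕ) (y : Y) :
    (cj φ T).symm^[n] y = φ (T.symm^[n] (φ.symm y)) := by
  induction n generalizing y with
  | zero => simp
  | succ n ih =>
    rw [Function.iterate_succ_apply, ih, cj_symm_apply, Function.iterate_succ_apply,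
      φ.symm_apply_apply]

theorem cj_mp {φ : X ≃ᵐ Y} (hφ : MeasurePreserving φ μ ν) {T : X ≃ᵐ X}
    (hT : MeasurePreserving T μ μ) : MeasurePreserving (cj φ T) ν ν :=
  (hφ.comp hT).comp (hφ.symm φ)

theorem cj_towers {φ : X ≃ᵐ Y} (hφ : MeasurePreserving φ μ ν) {T : X ≃ᵐ X}
    (h : HasTowers μ T) : HasTowers ν (cj φ T) := by
  intro ε hε H
  obtain ⟨n, B, hn, hB, hd, hm⟩ := h ε hε H
  have hpre : ∀ i, (cj φ T).symm^[i] ⁻¹' (φ.symm ⁻¹' B) = φ.symm ⁻¹' (T.symm^[i] ⁻¹' B) := by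
    intro i
    ext y
    simp only [Set.mem_preimage]
    rw [cj_symm_iter, φ.symm_apply_apply]
  refine ⟨n, φ.symm ⁻¹' B, hn, φ.symm.measurable hB, ?_, ?_⟩
  · intro i hi j hj hij
    rw [hpre, hpre]
    exact (hd i hi j hj hij).preimage _
  · simp only [hpre]
    rw [← Set.preimage_iUnion₂, ← Set.preimage_compl]
    rw [(hφ.symm φ).measure_preimage_equiv]
    exact hm

/-- simple Lebesgue spectrum, in terms of functions -/
def FL (μ : Measure X) (T : X ≃ᵐ X) : Prop :=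
  ∃ f : X → ℂ, MemLp f 2 μ ∧ ∫ x, f x ∂μ = 0 ∧
    (∀ m n : ℤ, ∫ x, f (((T.toEquiv : Equiv.Perm X) ^ m) x) *
      starRingEnd ℂ (f (((T.toEquiv : Equiv.Perm X) ^ n) x)) ∂μ = if m = n then 1 else 0) ∧
    ∀ g : X → ℂ, MemLp g 2 μ → ∫ x, g x ∂μ = 0 →
      (∀ n : ℤ, ∫ x, g x * starRingEnd ℂ (f (((T.toEquiv : Equiv.Perm X) ^ n) x)) ∂μ = 0) →
      g =ᵐ[μ] 0

theorem cj_FL {φ : X ≃ᵐ Y} (hφ : MeasurePreserving φ μ ν) {T : X ≃ᵐ X} (h : FL μ T) :
    FL ν (cj φ T) := by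
  obtain ⟨f, h1, h2, h3, h4⟩ := h
  have hs := hφ.symm φ
  have hint : ∀ F : X → ℂ, ∫ y, F (φ.symm y) ∂ν = ∫ x, F x ∂μ := fun F =>
    hs.integral_comp φ.symm.measurableEmbedding F
  have hint' : ∀ F : Y → ℂ, ∫ x, F (φ x) ∂μ = ∫ y, F y ∂ν := fun F =>
    hφ.integral_comp φ.measurableEmbedding F
  refine ⟨fun y => f (φ.symm y), h1.comp_measurePreserving hs, ?_, ?_, ?_⟩
  · rw [hint f, h2]
  · intro m n
    simp only [cj_zpow, φ.symm_apply_apply]
    rw [hint fun x => f (((T.toEquiv : Equiv.Perm X) ^ m) x) *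
      starRingEnd ℂ (f (((T.toEquiv : Equiv.Perm X) ^ n) x)), h3]
  · intro g g1 g2 g3
    have h5 := h4 (fun x => g (φ x)) (g1.comp_measurePreserving hφ) (by rw [hint' g, g2]) (by
      intro n
      have h6 := g3 n
      simp only [cj_zpow, φ.symm_apply_apply] at h6
      rw [← hint'] at h6
      simp only [φ.symm_apply_apply] at h6
      exact h6)
    have h7 := hs.quasiMeasurePreserving.ae_eq_comp h5
    filter_upwards [h7] with y hy
    simpa using hy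

/-- strong mixing -/
def Mix (μ : Measure X) (T : X ≃ᵐ X) : Prop :=
  ∀ A B : Set X, MeasurableSet A → MeasurableSet B →
    Tendsto (fun n : ℕ => μ (A ∩ T^[n] ⁻¹' B)) atTop (𝓝 (μ A * μ B))

theorem cj_mix {φ : X ≃ᵐ Y} (hφ : MeasurePreserving φ μ ν) {T : X ≃ᵐ X} (h : Mix μ T) :
    Mix ν (cj φ T) := by
  intro A B hA hB
  have h1 := h (φ ⁻¹' A) (φ ⁻¹' B) (φ.measurable hA) (φ.measurable hB)
  rw [hφ.measure_preimage_equiv, hφ.measure_preimage_equiv] at h1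
  refine h1.congr fun n => ?_
  have h2 : φ ⁻¹' (A ∩ (cj φ T)^[n] ⁻¹' B) = φ ⁻¹' A ∩ T^[n] ⁻¹' (φ ⁻¹' B) := by
    ext x
    simp only [Set.mem_preimage, Set.mem_inter_iff]
    rw [cj_iter, φ.symm_apply_apply]
  rw [← h2, hφ.measure_preimage_equiv]

theorem mp_zpow {T : X ≃ᵐ X} (hT : MeasurePreserving T μ μ) (n : ℤ) :
    MeasurePreserving (fun x => ((T.toEquiv : Equiv.Perm X) ^ n) x) μ μ := by
  have h1 : ∀ {R : X ≃ᵐ X}, MeasurePreserving R μ μ → ∀ k : ℕ,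
      MeasurePreserving (fun x => ((R.toEquiv : Equiv.Perm X) ^ k) x) μ μ := by
    intro R hR k
    have : (fun x => ((R.toEquiv : Equiv.Perm X) ^ k) x) = R^[k] := by
      funext x
      rw [← Equiv.Perm.iterate_eq_pow]
      rfl
    rw [this]
    exact hR.iterate k
  obtain ⟨k, rfl | rfl⟩ := n.eq_nat_or_neg
  · simpa only [zpow_natCast] using h1 hT k
  · have h := h1 (hT.symm T) k
    have h2 : (fun x => ((T.toEquiv : Equiv.Perm X) ^ (-(k : ℤ))) x) =
        (fun x => ((T.symm.toEquiv : Equiv.Perm X) ^ k) x) := by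
      funext x
      rw [zpow_neg, zpow_natCast, ← inv_pow]
      rfl
    rw [h2]
    exact h

/-- **Simple Lebesgue spectrum**: for some function `f` the functions `f ∘ T ^ n`, `n ∈ ℤ`, form an
orthonormal (Hilbert) basis of the orthogonal complement of the constants in complex `L²(μ)`. -/
def SimpleLebesgue (μ : Measure X) [IsFiniteMeasure μ] (T : X ≃ᵐ X) : Prop :=
  ∃ (f : X → ℂ) (b : HilbertBasis ℤ ℂ (Submodule.span ℂ {Lp.const 2 μ (1 : ℂ)})ᗮ),
    ∀ n : ℤ, ((b n : Lp ℂ 2 μ) : X → ℂ) =ᵐ[μ] fun x => f (((T.toEquiv : Equiv.Perm X) ^ n) x)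

theorem inner_const [IsFiniteMeasure μ] (g : Lp ℂ 2 μ) :
    inner ℂ (Lp.const 2 μ (1 : ℂ)) g = ∫ x, g x ∂μ := by
  rw [L2.inner_def]
  refine integral_congr_ae ?_
  filter_upwards [Lp.coeFn_const (p := 2) (μ := μ) (1 : ℂ)] with x hx
  rw [hx]
  simp

theorem simple_of_FL [IsFiniteMeasure μ] {T : X ≃ᵐ X} (hT : MeasurePreserving T μ μ)
    (h : FL μ T) : SimpleLebesgue μ T := by
  classical
  obtain ⟨f, h1, h2, h3, h4⟩ := h
  set W : Submodule ℂ (Lp ℂ 2 μ) := (Submodule.span ℂ {Lp.const 2 μ (1 : ℂ)})ᗮ with hW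
  have hfn : ∀ n : ℤ, MemLp (fun x => f (((T.toEquiv : Equiv.Perm X) ^ n) x)) 2 μ := fun n =>
    h1.comp_measurePreserving (mp_zpow hT n)
  have hmem : ∀ g : Lp ℂ 2 μ, g ∈ W ↔ ∫ x, g x ∂μ = 0 := by
    intro g
    rw [hW, Submodule.mem_orthogonal_singleton_iff_inner_right, inner_const]
  have hvm : ∀ n, (hfn n).toLp _ ∈ W := by
    intro n
    rw [hmem, integral_congr_ae (hfn n).coeFn_toLp]
    have h5 : MeasurableEmbedding fun x => ((T.toEquiv : Equiv.Perm X) ^ n) x := by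
      let e : X ≃ᵐ X := ⟨((T.toEquiv : Equiv.Perm X) ^ n), (mp_zpow hT n).measurable, by
        have h6 := (mp_zpow hT (-n)).measurable
        rw [zpow_neg] at h6
        exact h6⟩
      exact e.measurableEmbedding
    rw [(mp_zpow hT n).integral_comp h5 f, h2]
  let v : ℤ → W := fun n => ⟨(hfn n).toLp _, hvm n⟩
  have hinner : ∀ (n : ℤ) (g : Lp ℂ 2 μ), inner ℂ ((hfn n).toLp _) g =
      ∫ x, g x * starRingEnd ℂ (f (((T.toEquiv : Equiv.Perm X) ^ n) x)) ∂μ := by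
    intro n g
    rw [L2.inner_def]
    refine integral_congr_ae ?_
    filter_upwards [(hfn n).coeFn_toLp] with x hx
    rw [hx]
    simp
  have hv : Orthonormal ℂ v := by
    rw [orthonormal_iff_ite]
    intro m n
    have h5 : inner ℂ (v m) (v n) = inner ℂ ((hfn m).toLp _) ((hfn n).toLp _) := rfl
    rw [h5, hinner]
    have h6 : ∫ x, ((hfn n).toLp _ : Lp ℂ 2 μ) x *
        starRingEnd ℂ (f (((T.toEquiv : Equiv.Perm X) ^ m) x)) ∂μ =
        ∫ x, f (((T.toEquiv : Equiv.Perm X) ^ n) x) *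
        starRingEnd ℂ (f (((T.toEquiv : Equiv.Perm X) ^ m) x)) ∂μ := by
      refine integral_congr_ae ?_
      filter_upwards [(hfn n).coeFn_toLp] with x hx
      rw [hx]
    rw [h6, h3]
    simp only [eq_comm]
  have hsp : (Submodule.span ℂ (Set.range v))ᗮ = ⊥ := by
    rw [Submodule.eq_bot_iff]
    intro g hg
    have h5 : ∀ n, inner ℂ (v n) g = 0 := fun n =>
      (Submodule.mem_orthogonal _ _).1 hg _ (Submodule.subset_span ⟨n, rfl⟩)
    have h6 := h4 ((g : Lp ℂ 2 μ) : X → ℂ) (Lp.memLp _) ((hmem _).1 g.2) (fun n => by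
      rw [← hinner]
      exact h5 n)
    refine Subtype.ext ?_
    exact (Lp.eq_zero_iff_ae_eq_zero).2 h6
  have : CompleteSpace W := by
    rw [hW]
    infer_instance
  refine ⟨f, HilbertBasis.mkOfOrthogonalEqBot hv hsp, fun n => ?_⟩
  rw [HilbertBasis.coe_mkOfOrthogonalEqBot]
  exact (hfn n).coeFn_toLp

end Vale.Agent.P130.H454
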